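import Vale.Agent.P167.H436.ND.Defs

/-!
# P167, general `q`, block Q-ND: the pieces which do not visit the zones

Proofs of `S_cls`, `S_gap`, `S_stay`.
-/

namespace Vale.Agent.P167.H640.ND

open Finset Vale.Agent.P167 Vale.Agent.P167.BR Vale.Agent.P167.FK Vale.Agent.P167.H632
open Vale.Agent.P145.FB (PStep)
open Vale.Agent.P167.QX (lo hi exists_xy lo_xy hi_xy)
open Vale.Agent.P167.QB (Ard sep_ard ard_lp ard_xy flat_side)
open Vale.Agent.P167.E6 (IsPolygon Encloses dir face)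
open Vale.Agent.P167.E2 Relation
open Vale.Agent.P167.H192.TA (Xc dq sr Pw)
open Vale.Agent.P167.H436.ND

variable {ω : Cfg} {D Z : Finset (ℤ × ℤ)} {A : Finset Ed} {b : ℤ × ℤ} {r s R : ℤ}

/-! ### paths along rows and columns -/

theorem hor {x x' y : ℤ} (h : x ≤ x') (hs : ∀ t, x ≤ t → t < x' → (t, y) ∈ Z ∨ (t, y - 1) ∈ Z) :
    ReflTransGen (Ec Z) (x, y) (x', y) := by
  obtain ⟨m, rfl⟩ := Int.le.dest h
  clear h
  induction m with
  | zero => rw [Nat.cast_zero, add_zero]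
  | succ m ih =>
    have h1 := ih (fun t h1 h2 => hs t h1 (by push_cast; omega))
    refine h1.tail ?_
    have h2 := ec_of (Z := Z) (s := (x + m, y)) (r := 0) (by
      rw [f4_0m, face0, face3]
      exact hs _ (by omega) (by push_cast; omega))
    have e : ((x + (m : ℤ), y) : ℤ × ℤ) + dir 0 = (x + ((m + 1 : ℕ) : ℤ), y) := by
      rw [dir0]; ext <;> simp; ring
    rwa [e] at h2

theorem ver {x y y' : ℤ} (h : y ≤ y') (hs : ∀ t, y ≤ t → t < y' → (x, t) ∈ Z ∨ (x - 1, t) ∈ Z) :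
    ReflTransGen (Ec Z) (x, y) (x, y') := by
  obtain ⟨m, rfl⟩ := Int.le.dest h
  clear h
  induction m with
  | zero => rw [Nat.cast_zero, add_zero]
  | succ m ih =>
    have h1 := ih (fun t h1 h2 => hs t h1 (by push_cast; omega))
    refine h1.tail ?_
    have h2 := ec_of (Z := Z) (s := (x, y + m)) (r := 1) (by
      rw [f4_1m, face0, face1]
      exact (hs _ (by omega) (by push_cast; omega)).symm)
    have e : ((x, y + (m : ℤ)) : ℤ × ℤ) + dir 1 = (x, y + ((m + 1 : ℕ) : ℤ)) := by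
      rw [dir1]; ext <;> simp; ring
    rwa [e] at h2

/-! ### the zone -/

theorem mem_Zg {v : ℤ × ℤ} : v ∈ Zg b r s ↔
    (b.1 - s ≤ v.1 ∧ v.1 < b.1 + s ∧ b.2 ≤ v.2 ∧ v.2 < b.2 + s) ∧
      ¬ (b.1 - r ≤ v.1 ∧ v.1 < b.1 + r ∧ b.2 ≤ v.2 ∧ v.2 < b.2 + r) := by
  rw [Zg, mem_sdiff, mem_hbox, mem_hbox]

theorem Zr_eq (a : ℤ) : Zr b a = Zg b a (2 * a) := rfl

theorem mem_sites_Zg (h0 : 0 ≤ r) (hrs : r < s) {z : ℤ × ℤ} : z ∈ sites (Zg b r s) ↔
    (b.1 - s ≤ z.1 ∧ z.1 ≤ b.1 + s ∧ b.2 ≤ z.2 ∧ z.2 ≤ b.2 + s) ∧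
      (z.1 ≤ b.1 - r ∨ b.1 + r ≤ z.1 ∨ b.2 + r ≤ z.2) := by
  rw [mem_sites]
  constructor
  · rintro ⟨v, hv, h1, h2⟩
    rw [mem_Zg] at hv
    omega
  · rintro ⟨h, h3 | h3 | h3⟩
    · refine ⟨(max (z.1 - 1) (b.1 - s), min z.2 (b.2 + s - 1)), ?_, ?_, ?_⟩
      · rw [mem_Zg]; simp only; omega
      · simp only; omega
      · simp only; omega
    · refine ⟨(min z.1 (b.1 + s - 1), min z.2 (b.2 + s - 1)), ?_, ?_, ?_⟩
      · rw [mem_Zg]; simp only; omega
      · simp only; omega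
      · simp only; omega
    · refine ⟨(min z.1 (b.1 + s - 1), min z.2 (b.2 + s - 1)), ?_, ?_, ?_⟩
      · rw [mem_Zg]; simp only; omega
      · simp only; omega
      · simp only; omega

/-- The sites of the zone are joined across its edges. -/
theorem econ_Zg (h0 : 0 ≤ r) (hrs : r < s) : ECon (Zg b r s) := by
  -- the column `b.1 - r`
  have col : ∀ y, b.2 ≤ y → y ≤ b.2 + s →
      ReflTransGen (Ec (Zg b r s)) (b.1 - r, b.2 + r) (b.1 - r, y) := by
    intro y h1 h2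
    rcases le_total y (b.2 + r) with h | h
    · refine ec_reach_symm (ver h fun t h3 h4 => Or.inr ?_)
      rw [mem_Zg]; simp only; omega
    · refine ver h fun t h3 h4 => Or.inr ?_
      rw [mem_Zg]; simp only; omega
  -- the sites at the top
  have top : ∀ z : ℤ × ℤ, (b.1 - s ≤ z.1 ∧ z.1 ≤ b.1 + s ∧ b.2 ≤ z.2 ∧ z.2 ≤ b.2 + s) →
      b.2 + r ≤ z.2 → ReflTransGen (Ec (Zg b r s)) (b.1 - r, b.2 + r) z := by
    intro z hz h
    refine (col z.2 hz.2.2.1 hz.2.2.2).trans ?_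
    have hrow : ∀ t : ℤ, b.1 - s ≤ t → t < b.1 + s →
        (t, z.2) ∈ Zg b r s ∨ (t, z.2 - 1) ∈ Zg b r s := by
      intro t h1 h2
      rw [mem_Zg, mem_Zg]; simp only; omega
    rcases le_total (b.1 - r) z.1 with h3 | h3
    · exact hor h3 fun t h4 h5 => hrow t (by omega) (by omega)
    · exact ec_reach_symm (hor h3 fun t h4 h5 => hrow t (by omega) (by omega))
  have key : ∀ z ∈ sites (Zg b r s), ReflTransGen (Ec (Zg b r s)) (b.1 - r, b.2 + r) z := by
    intro z hz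
    rw [mem_sites_Zg h0 hrs] at hz
    obtain ⟨hz, h | h | h⟩ := hz
    · refine (col z.2 hz.2.2.1 hz.2.2.2).trans (ec_reach_symm (hor h fun t h4 h5 => ?_))
      rw [mem_Zg, mem_Zg]; simp only; omega
    · rcases le_total (b.2 + r) z.2 with h3 | h3
      · exact top z hz h3
      · refine (top (z.1, b.2 + r) (by simp only; omega) le_rfl).trans
          (ec_reach_symm (ver h3 fun t h4 h5 => ?_))
        rw [mem_Zg, mem_Zg]; simp only; omega
    · exact top z hz h
  intro s hs t ht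
  exact (ec_reach_symm (key s hs)).trans (key t ht)

/-! ### pieces which avoid a zone -/

theorem zone_sub (hF : Flt D b R) (h : s ≤ R) : Zg b r s ⊆ D :=
  fun _ hv => hbox_sub (hF.mono h) (mem_sdiff.1 hv).1

section

variable {n : ℕ} {q : ZMod n → ℤ × ℤ} {l m : ℕ}

/-- `A` separates the zone from the base iff its ends are on both sides of the zone. -/
theorem sep_zn (hw : Win q D l R) (hr : 1 ≤ r) (hrs : r < s) (hR : s ≤ R) (hA : A ∈ pcs ω D)
    (hV : ¬ Vz (Zg (q l) r s) A) {z : ℤ × ℤ} (hz : z ∈ sites (Zg (q l) r s)) :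
    Sep D A z (q 0) ↔ ((lo q A : ℤ) < l - r ∧ (l : ℤ) + r ≤ hi q A) := by
  obtain ⟨hq, hD, hF, hl, h0⟩ := hw
  have hfr := flat_range hq hD hF (by omega) hl h0
  have hs : Zg (q l) r s ⊆ D := zone_sub hF hR
  have key : ∀ w : ℕ, ((w : ℤ) = l - r ∨ (w : ℤ) = l + r) → (Sep D A z (q 0) ↔ Ard q w A) := by
    intro w hw
    obtain ⟨h1, -⟩ := flat_side hq hD hF (by omega) hl h0 (i := w) (by omega) (by omega)
    rw [← sep_ard hq hD hA (w := w) (by omega)]
    refine sep_zone hs (econ_Zg (by omega) hrs) hV hz ?_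
    rw [mem_sites_Zg (by omega) hrs, h1]
    simp only
    omega
  constructor
  · intro h
    have h1 := (key (l - r).toNat (by omega)).1 h
    have h2 := (key (l + r).toNat (by omega)).1 h
    unfold Ard at h1 h2
    omega
  · rintro ⟨h1, h2⟩
    rw [key (l + r).toNat (by omega)]
    unfold Ard
    omega

/-- **(CLS-a).** -/
theorem s_cls : S_cls := by
  intro n q D l R hw m ρ σ ha ω A hA hV
  classical
  let P : ℤ → Prop := fun c => (lo q A : ℤ) < l - c ∧ (l : ℤ) + c ≤ hi q A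
  have hP : ∀ c d, c ≤ d → P d → P c := fun c d h h1 => ⟨by have := h1.1; omega, by have := h1.2; omega⟩
  have hst : ∀ i : Fin m, ∀ z ∈ sites (Zg (q l) (ρ i) (σ i)), (Sep D A z (q 0) ↔ P (ρ i)) := by
    intro i z hz
    have h1 := ha.pos i
    have h2 := ha.wid i
    have h3 := ha.top i
    exact sep_zn hw (by omega) (by omega) (by omega) hA (hV i) hz
  have hmono : ∀ i j : Fin m, i ≤ j → P (ρ j) → P (ρ i) := by
    intro i j hij h
    rcases hij.lt_or_eq with h1 | h1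
    · have h2 := ha.step i j h1
      have h3 := ha.wid i
      exact hP _ _ (by omega) h
    · rwa [h1]
  obtain ⟨j, hj, hj1, hj2⟩ : ∃ j ≤ m, (¬ ∃ h : j < m, P (ρ ⟨j, h⟩)) ∧
      ∀ k < j, ∃ h : k < m, P (ρ ⟨k, h⟩) := by
    have hex : ∃ k, ¬ ∃ h : k < m, P (ρ ⟨k, h⟩) := ⟨m, fun ⟨h, _⟩ => lt_irrefl _ h⟩
    exact ⟨Nat.find hex, Nat.find_min' hex (fun ⟨h, _⟩ => lt_irrefl _ h), Nat.find_spec hex,
      fun k hk => not_not.1 (Nat.find_min hex hk)⟩
  refine ⟨j, hj, ?_, ?_⟩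
  · intro i z hz
    rw [hst i z hz]
    constructor
    · intro h
      by_contra hcon
      push Not at hcon
      have h1 : j < m := by omega
      exact hj1 ⟨h1, hmono ⟨j, h1⟩ i (by rw [Fin.le_def]; exact hcon) h⟩
    · intro h
      obtain ⟨h2, h3⟩ := hj2 i h
      exact h3
  · intro h
    obtain ⟨h2, h3, h4⟩ := hj2 0 h
    have h5 := ha.pos ⟨0, h2⟩
    omega

/-- **(CLS-d).** -/
theorem s_gap : S_gap := by
  intro n q D l R hw m ρ σ ha ω A hA hV i j hij c hX z hz w hw'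
  have hpi := ha.pos i
  have hpj := ha.pos j
  have hwi := ha.wid i
  have hwj := ha.wid j
  have hst := ha.step i j (by rw [Fin.lt_def]; omega)
  have hti := ha.top i
  have htj := ha.top j
  obtain ⟨hq, hD, hF, hl, h0⟩ := hw
  obtain ⟨y, y', hy, hyp, hyn, hp, hy'⟩ := hX
  have hsub : dq (q l) (σ i) (ρ j) ⊆ (↑D : Set (ℤ × ℤ)) := by
    intro v hv
    exact hbox_sub (hF.mono (show ρ j ≤ R by omega)) (mem_hbox.2 ⟨hv.1, hv.2.1, hv.2.2.1, hv.2.2.2.1⟩)
  have hreach : ReflTransGen (Stp ω D) y y' := by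
    rw [reach_iff hyp]
    refine Relation.ReflTransGen.mono ?_ _ _ hp
    intro s t h
    exact ⟨h.1, h.2.1, h.2.2.1, hsub h.2.2.2⟩
  have hyr : y ∈ sites (Zg (q l) (ρ i) (σ i)) := by
    rw [mem_sites_Zg (by omega) (by omega)]
    obtain ⟨h1, h2, h3, h4, h5⟩ := hy
    rw [nm, max_le_iff, abs_le, abs_le] at hyn
    simp only [Prod.fst_sub, Prod.snd_sub] at hyn
    omega
  have hyr' : y' ∈ sites (Zg (q l) (ρ j) (σ j)) := by
    rw [mem_sites_Zg (by omega) (by omega)]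
    rcases ReflTransGen.cases_tail hp with h | ⟨s, -, h⟩
    · exfalso
      rw [h] at hy'
      omega
    · obtain ⟨h1, h2, -, h3, h4, h5, h6, h7⟩ := h
      simp only at h3 h4 h5 h6
      rw [nm, le_max_iff, le_abs, le_abs] at hy'
      simp only [Prod.fst_sub, Prod.snd_sub] at hy'
      omega
  have h1 : Sep D A z (q 0) ↔ Sep D A y (q 0) :=
    sep_zone (zone_sub hF (by omega)) (econ_Zg (by omega) (by omega)) (hV i) hz hyr
  have h2 : Sep D A w (q 0) ↔ Sep D A y' (q 0) :=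
    sep_zone (zone_sub hF (by omega)) (econ_Zg (by omega) (by omega)) (hV j) hw' hyr'
  rw [h1, h2]
  constructor
  · rintro ⟨u, hu, h⟩
    exact ⟨u, hu, by rwa [← pot_reach hA hu hreach]⟩
  · rintro ⟨u, hu, h⟩
    exact ⟨u, hu, by rwa [pot_reach hA hu hreach]⟩

/-- A piece which avoids the zone and visits the half box inside of the zone stays there. -/
theorem stay (hF : Flt D b R) (hr : 1 ≤ r) (hrs : r < s) (hR : s ≤ R) (hA : A ∈ pcs ω D)
    (hV : ¬ Vz (Zg b r s) A) (hVa : Vz (hbox b r) A) : ∀ e ∈ A, e ∈ eds (hbox b r) ∧ Inn b r e := by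
  -- an edge of the piece at the half box is inner
  have hin : ∀ e ∈ A, e ∈ eds (hbox b r) → Inn b r e := by
    intro e he h
    have h1 : e ∉ eds (Zg b r s) := fun h' => hV ⟨e, he, h'⟩
    rw [mem_eds, not_or, mem_Zg, mem_Zg] at h1
    rw [mem_eds, mem_hbox, mem_hbox] at h
    have h2 := adj_sq e
    unfold Inn
    rw [mem_hbox, mem_hbox]
    omega
  have hF' : Flt D b r := hF.mono (by omega)
  have key : ∀ e, hdv e ∈ D → ((e ∈ A ∧ e ∈ eds (hbox b r)) ↔
      (nx ω e ∈ A ∧ nx ω e ∈ eds (hbox b r))) := by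
    intro e he
    constructor
    · rintro ⟨h1, h2⟩
      have h3 := (hin e h1 h2).mem_hd hF' h2 he
      exact ⟨(nx_mem_iff hA he).1 h1, nx_mem_eds h3⟩
    · rintro ⟨h1, h2⟩
      have h3 := (hin _ h1 h2).mem_tl hF' h2 (by rwa [tlv_nx])
      rw [tlv_nx] at h3
      exact ⟨(nx_mem_iff hA he).2 h1, mem_eds.2 (Or.inl h3)⟩
  obtain ⟨e0, he0, h0⟩ := hVa
  intro e he
  have h := ((piece_const (P := fun e => e ∈ A ∧ e ∈ eds (hbox b r)) hA key he0 he).1 ⟨he0, h0⟩).2
  exact ⟨h, hin e he h⟩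

/-- **(CLS-e).** -/
theorem s_stay : S_stay := by
  intro n q D l R hw m ρ σ ha ω A hA hV i j hij hG
  have hpi := ha.pos i
  have hpj := ha.pos j
  have hwi := ha.wid i
  have hwj := ha.wid j
  have hst := ha.step i j (by rw [Fin.lt_def]; omega)
  have hti := ha.top i
  have htj := ha.top j
  have hsp : ∀ i : Fin m, ∀ z ∈ sites (Zg (q l) (ρ i) (σ i)),
      (Sep D A z (q 0) ↔ (lo q A : ℤ) < l - ρ i ∧ (l : ℤ) + ρ i ≤ hi q A) := by
    intro i z hz
    have h1 := ha.pos i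
    have h2 := ha.wid i
    have h3 := ha.top i
    exact sep_zn hw (by omega) (by omega) (by omega) hA (hV i) hz
  -- the zone `j` is not separated
  have hnj : ¬ ((lo q A : ℤ) < l - ρ j ∧ (l : ℤ) + ρ j ≤ hi q A) := by
    intro hs
    obtain ⟨hq, hD, hF, hl, h0⟩ := hw
    have hsy := stay hF (by omega) (by omega) (by omega) hA (hV j) (Vz.mono sdiff_subset hG)
    have hnl : ¬ IsLp D A := by
      intro hlp
      apply ard_lp hq hD hA hlp (w := l)
      unfold Ard
      omega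
    obtain ⟨x, y, h⟩ := exists_xy hq hD hA hnl
    have h0' : q 0 ∉ sites (hbox (q l) (ρ j)) := fun h' => h0 (sites_mono (hbox_mono (by omega)) h')
    have h2 := hi_xy hq hD hA h
    have hx := bd_inn hq hD (hF.mono (show ρ j ≤ R by omega)) (by omega) hl h0' h.1
      (hsy _ h.2.2.1).1 (hsy _ h.2.2.1).2
    have hy := bd_inn hq hD (hF.mono (show ρ j ≤ R by omega)) (by omega) hl h0' h.2.1
      (hsy _ h.2.2.2.1).1 (hsy _ h.2.2.2.1).2
    omega
  -- the ends of a strand are not at the inner half box of the zone `i`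
  have hout : ∀ i' : Fin m, (lo q A : ℤ) < l - ρ i' ∧ (l : ℤ) + ρ i' ≤ hi q A →
      (lo q A : ℤ) < l - ρ i ∧ (l : ℤ) + ρ i ≤ hi q A := by
    intro i' hs
    have hpi' := ha.pos i'
    obtain ⟨hq, hD, hF, hl, h0⟩ := hw
    have hfr := flat_range hq hD hF (by omega) hl h0
    have hnl : ¬ IsLp D A := by
      intro hlp
      apply ard_lp hq hD hA hlp (w := l)
      unfold Ard
      omega
    -- the piece does not visit the inner half box
    have hnv : ¬ Vz (hbox (q l) (ρ i)) A := by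
      intro hVa
      have hsy := stay hF (by omega) (by omega) (by omega) hA (hV i) hVa
      obtain ⟨e, he, h1⟩ := hG
      have h2 := (hsy e he).2
      unfold Inn at h2
      rw [mem_hbox, mem_hbox] at h2
      rw [mem_eds, mem_Zg, mem_Zg] at h1
      omega
    have hsd : ∀ x : ℕ, be q (x : ZMod n) ∈ A → ((x : ℤ) < l - ρ i ∨ (l : ℤ) + ρ i ≤ x) := by
      intro x hx
      by_contra hcon
      push Not at hcon
      obtain ⟨h1, h2⟩ := flat_side hq hD hF (by omega) hl h0 (i := x) (by omega) (by omega)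
      refine hnv ⟨_, hx, ?_⟩
      rw [h2, ce_mem_eds]
      left
      rw [face0, h1, mem_hbox]
      simp only
      omega
    obtain ⟨x, y, h⟩ := exists_xy hq hD hA hnl
    have h1 := lo_xy hq hD hA h
    have h2 := hi_xy hq hD hA h
    have h3 := hsd x h.2.2.1
    have h4 := hsd y h.2.2.2.1
    omega
  by_cases hc : (lo q A : ℤ) < l - ρ i ∧ (l : ℤ) + ρ i ≤ hi q A
  · right
    exact ⟨fun z hz => (hsp i z hz).2 hc, fun z hz h => hnj ((hsp j z hz).1 h)⟩
  · left
    intro i' z hz h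
    exact hc (hout i' ((hsp i' z hz).1 h))

end

end Vale.Agent.P167.H640.ND
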