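import Vale.Agent.P167.H436.ND.Cut2
import Vale.Agent.P167.H640.ND.Cls
import Vale.Agent.P167.H135.ND.Cls3

/-!
# P167, general `q`, block Q-ND: crude bound of the second moment of the reference weight (`S_top`)

The pieces of nontrivial class visit a gap between two rings, which is covered by dyadic half annuli.
-/

namespace Vale.Agent.P167.H640.ND

open Finset Vale.Agent.P167 Vale.Agent.P167.BR Vale.Agent.P167.FK
open Vale.Agent.P167.FKA (Ind)
open Vale.Agent.P167.QX (lo hi)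
open Vale.Agent.P167.H562.QM (MajA)
open Vale.Agent.P167.H436.ND

variable {n m l : ℕ} {q : ZMod n → ℤ × ℤ} {D : Finset (ℤ × ℤ)} {ω : Cfg} {A : Finset Ed} {R : ℤ}
  {v : ℕ → ℝ}

/-- The radii of the dyadic half annuli. -/
def rt (a : ℤ) (t : ℕ) : ℤ := 2 ^ t * (2 * a)

theorem rt_succ (a : ℤ) (t : ℕ) : rt a (t + 1) = 2 * rt a t := by
  unfold rt; rw [pow_succ]; ring

theorem rt_ge {a : ℤ} (ha : 0 ≤ a) (t : ℕ) : 2 * a ≤ rt a t := by
  unfold rt
  have h : (1 : ℤ) ≤ 2 ^ t := one_le_pow₀ (by norm_num)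
  nlinarith

theorem rt_mono {a : ℤ} (ha : 0 ≤ a) {t t' : ℕ} (h : t + 2 ≤ t') : 4 * rt a t ≤ rt a t' := by
  unfold rt
  have h1 : (2 : ℤ) ^ (t + 2) ≤ 2 ^ t' := pow_le_pow_right₀ (by norm_num) h
  rw [pow_add] at h1
  nlinarith

/-- A square of the gap is in a dyadic half annulus. -/
theorem dyad {b v : ℤ × ℤ} {a s : ℤ} (ha : 1 ≤ a) (hv : v ∈ Zg b (2 * a) s) :
    ∃ t : ℕ, v ∈ Zg b (rt a t) (rt a (t + 1)) ∧ rt a t < s := by
  obtain ⟨x, hx⟩ : ∃ x : ℤ, x = max (b.1 - v.1 - 1) (max (v.1 - b.1) (v.2 - b.2)) := ⟨_, rfl⟩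
  rw [ND.mem_Zg] at hv
  have h1 : 2 * a ≤ x := by omega
  have h2 : x < s := by omega
  have h3 : 1 ≤ x / (2 * a) := (Int.le_ediv_iff_mul_le (by omega)).2 (by omega)
  obtain ⟨X, hX⟩ : ∃ X : ℕ, (X : ℤ) = x / (2 * a) := ⟨(x / (2 * a)).toNat, by omega⟩
  have hX0 : X ≠ 0 := by omega
  have k1 : rt a (Nat.log 2 X) ≤ x := by
    have h4 : ((2 ^ Nat.log 2 X : ℕ) : ℤ) ≤ X := by exact_mod_cast Nat.pow_log_le_self 2 hX0
    push_cast at h4
    rw [hX] at h4
    exact (Int.le_ediv_iff_mul_le (by omega)).1 h4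
  have k2 : x < rt a (Nat.log 2 X + 1) := by
    have h4 : (X : ℤ) < ((2 ^ (Nat.log 2 X + 1) : ℕ) : ℤ) := by
      exact_mod_cast Nat.lt_pow_succ_log_self (by norm_num) X
    push_cast at h4
    rw [hX] at h4
    exact (Int.ediv_lt_iff_lt_mul (by omega)).1 h4
  refine ⟨Nat.log 2 X, ?_, by omega⟩
  rw [ND.mem_Zg]
  have h5 := rt_ge (a := a) (by omega) (Nat.log 2 X)
  omega

theorem zns_of {a : Fin m → ℤ} (ha : Scl 16 4 R a) : Zns R a (fun i => 2 * a i) where
  pos i := by have := ha.pos i; omega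
  wid i := by have := ha.pos i; omega
  step i j h := by have := ha.pos i; have := ha.step i j h; omega
  top i := by have := ha.pos i; have := ha.top i; omega

theorem zf_sites {b : ℤ × ℤ} {a : Fin m → ℤ} (ha : Scl 16 4 R a) (i : Fin m) :
    zf b a i ∈ sites (Zg b (a i) (2 * a i)) := by
  have := ha.pos i
  rw [mem_sites_Zg (by omega) (by omega)]
  unfold zf
  simp only
  omega

/-- A piece of nontrivial class surrounds `q l` and visits a gap. -/
theorem cls_gap (hW : Win q D l R) {a : Fin m → ℤ} (ha : Scl 16 4 R a) (hv0 : v 0 = 1)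
    (hvm : ∀ j, v j ≠ 1 → j < m) (hA : A ∈ pcs ω D) (hV : ¬ Vz (UU (q l) a 0) A)
    (h : v (clz q D (zf (q l) a) A) ≠ 1) : (lo q A < l ∧ l ≤ hi q A) ∧
      ∃ i j : Fin m, (i : ℕ) + 1 = j ∧ v j ≠ 1 ∧ Vz (Zg (q l) (2 * a i) (a j)) A := by
  classical
  have hV' : ∀ i, ¬ Vz (Zg (q l) (a i) (2 * a i)) A := by
    intro i h'
    apply hV
    rw [vz_UU]
    refine ⟨i, ?_⟩
    rwa [rh_zero, sg_zero]
  obtain ⟨j0, hj0, h1, h2⟩ := s_cls n q D l R hW m a (fun i => 2 * a i) (zns_of ha) ω A hA hV'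
  have hfil : (univ.filter fun i => Sep D A (zf (q l) a i) (q 0)) =
      univ.filter fun i : Fin m => (i : ℕ) < j0 := by
    ext i
    simp only [mem_filter, mem_univ, true_and]
    exact h1 i _ (zf_sites ha i)
  have hc : clz q D (zf (q l) a) A = j0 ∧ j0 < m := by
    rcases hj0.lt_or_eq with h3 | h3
    · refine ⟨?_, h3⟩
      unfold clz
      rw [hfil, show (univ.filter fun i : Fin m => (i : ℕ) < j0) = Iio (⟨j0, h3⟩ : Fin m) by
        ext i; simp [Fin.lt_def], Fin.card_Iio]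
    · exfalso
      have : clz q D (zf (q l) a) A = m := by
        unfold clz
        rw [hfil, show (univ.filter fun i : Fin m => (i : ℕ) < j0) = univ by
          ext i; simp [h3], card_univ, Fintype.card_fin]
      rw [this] at h
      exact lt_irrefl _ (hvm m h)
  obtain ⟨hc, hjm⟩ := hc
  rw [hc] at h
  have hpos : 0 < j0 := by
    rcases Nat.eq_zero_or_pos j0 with h3 | h3
    · rw [h3] at h; exact absurd hv0 h
    · exact h3
  refine ⟨h2 hpos, ⟨j0 - 1, by omega⟩, ⟨j0, hjm⟩, by simp only; omega, h, ?_⟩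
  -- the gap is visited
  set i : Fin m := ⟨j0 - 1, by omega⟩ with hi
  set j : Fin m := ⟨j0, hjm⟩ with hj
  have hij : i < j := by rw [Fin.lt_def]; simp only [hi, hj]; omega
  have hsi : Sep D A (zf (q l) a i) (q 0) := (h1 i _ (zf_sites ha i)).2 (by simp only [hi]; omega)
  have hsj : ¬ Sep D A (zf (q l) a j) (q 0) := fun h' =>
    absurd ((h1 j _ (zf_sites ha j)).1 h') (by simp [hj])
  by_contra hcon
  have pi := ha.pos i
  have pj := ha.pos j
  have pst := ha.step i j hij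
  have ptj := ha.top j
  have hav : ¬ Vz (Zg (q l) (a i) (2 * a j)) A := by
    intro h'
    have h3 : Zg (q l) (a i) (2 * a j) ⊆ Zg (q l) (a i) (2 * a i) ∪
        (Zg (q l) (2 * a i) (a j) ∪ Zg (q l) (a j) (2 * a j)) := by
      intro w hw
      rw [mem_union, mem_union, ND.mem_Zg, ND.mem_Zg, ND.mem_Zg]
      rw [ND.mem_Zg] at hw
      omega
    have h4 := Vz.mono' h3 h'
    rw [vz_union, vz_union] at h4
    rcases h4 with h4 | h4 | h4
    · exact hV' i h4
    · exact hcon h4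
    · exact hV' j h4
  have hmem : ∀ k : Fin m, (k = i ∨ k = j) → zf (q l) a k ∈ sites (Zg (q l) (a i) (2 * a j)) := by
    intro k hk
    rw [mem_sites_Zg (by omega) (by omega)]
    unfold zf
    simp only
    rcases hk with rfl | rfl <;> omega
  have := sep_zone (p := q 0) (zone_sub hW.flat (by omega)) (econ_Zg (by omega) (by omega)) hav
    (hmem i (Or.inl rfl)) (hmem j (Or.inr rfl))
  exact hsj (this.1 hsi)

theorem amgm4 (x y z w : ℝ) : x * y * (z * w) ≤ (x ^ 4 + y ^ 4 + z ^ 4 + w ^ 4) / 4 := by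
  have h1 : x * y * (z * w) ≤ ((x * y) ^ 2 + (z * w) ^ 2) / 2 := by
    nlinarith [sq_nonneg (x * y - z * w)]
  have h2 : (x * y) ^ 2 ≤ (x ^ 4 + y ^ 4) / 2 := by nlinarith [sq_nonneg (x ^ 2 - y ^ 2)]
  have h3 : (z * w) ^ 2 ≤ (z ^ 4 + w ^ 4) / 2 := by nlinarith [sq_nonneg (z ^ 2 - w ^ 2)]
  linarith

theorem exp_vs {vs : ℝ} (hvs : 1 ≤ vs) (N : ℕ) :
    Real.exp (8 * Real.log vs * N) = (vs ^ (2 * N)) ^ 4 := by
  have h0 : 0 < vs := by linarith
  have e : 8 * Real.log vs * N = ((2 * N * 4 : ℕ) : ℝ) * Real.log vs := by push_cast; ring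
  rw [e, Real.exp_nat_mul, Real.exp_log h0, pow_mul]

/-- **(TOP).** -/
theorem s_top {Q : ℝ} (hQ : 0 < Q) (hzn : S_zn Q) : S_top Q := by
  classical
  intro m vs hvs
  obtain ⟨M, r₀, hM, hz⟩ := hzn (8 * Real.log vs)
  refine ⟨M ^ m, one_le_pow₀ hM, fun K hK => ⟨max r₀ 16, ?_⟩⟩
  intro v hv0 hv1 hv2 hvm n q D l R η pl pr hW hO a ha hKR hstep
  have hpos : ∀ i, r₀ ≤ a i ∧ 16 ≤ a i := fun i => by have := ha.pos i; omega
  have ha' : Scl 16 4 R a := ⟨fun i => (hpos i).2, fun i j h => by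
    have h1 := ha.step i j h
    have h2 := (hpos i).2
    nlinarith, ha.top⟩
  have hKR' : ∀ i, 16 * a i ≤ R := fun i => by
    have h1 := hKR i
    have h2 := (hpos i).2
    nlinarith
  have hrt : ∀ i t, 2 * a i ≤ rt (a i) t := fun i t => rt_ge (by have := (hpos i).2; omega) t
  choose N hN1 hN2 using fun p : Fin m × ℕ => hz (q l) (rt (a p.1) p.2) (rt (a p.1) (p.2 + 1))
    (by have := hpos p.1; have := hrt p.1 p.2; omega)
    (by have := hpos p.1; have := hrt p.1 p.2; rw [rt_succ]; omega)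
    (by have := hpos p.1; have := hrt p.1 p.2; rw [rt_succ]; omega)
  set L := Nat.log 2 K.toNat with hL
  set I : Finset (Fin m × ℕ) := (univ ×ˢ range (L + 1)).filter fun p =>
    ∃ j : Fin m, (p.1 : ℕ) + 1 = j ∧ rt (a p.1) p.2 < a j with hI
  have hIc : I.card ≤ m * (L + 1) := by
    refine (card_filter_le _ _).trans (le_of_eq ?_)
    rw [card_product, card_univ, Fintype.card_fin, card_range]
  -- radii of the active annuli
  have hact : ∀ p ∈ I, 16 * rt (a p.1) p.2 < R := by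
    intro p hp
    obtain ⟨j, hj, h1⟩ := (mem_filter.1 hp).2
    have := hKR' j
    omega
  -- the bound of the reference weight
  have hV : ∀ ω : Cfg, Vc v q D (zf (q l) a) (UU (q l) a 0) ω ≤ ∏ p ∈ I, vs ^ N p ω := by
    intro ω
    have hUD : UU (q l) a 0 ⊆ D := by
      intro w hw
      obtain ⟨i, -, hi⟩ := mem_biUnion.1 hw
      rw [rh_zero, sg_zero] at hi
      have := hKR' i
      have := hpos i
      exact zone_sub hW.flat (by omega) hi
    have h1 := Vc_le (zr := zf (q l) a) (ω := ω) (q := q) (D := D) (U' := D) hvs hv1 hv2 hUD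
      (N := ∑ p ∈ I, N p ω) ?_
    · have h2 : Vc v q D (zf (q l) a) D ω = 1 := by
        unfold Vc
        rw [filter_eq_empty_iff.2, prod_empty]
        intro A hA h3
        obtain ⟨e, he⟩ := pcs_nonempty hA
        exact h3 ⟨e, he, subset_eds hA he⟩
      rw [h2, one_mul] at h1
      rwa [prod_pow_eq_pow_sum]
    · intro 𝓕 hF
      have hcov : 𝓕 ⊆ I.biUnion fun p =>
          𝓕.filter fun A => Vz (Zg (q l) (rt (a p.1) p.2) (rt (a p.1) (p.2 + 1))) A := by
        intro A hA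
        obtain ⟨h1, h2, -, h4⟩ := hF A hA
        obtain ⟨-, i, j, hij, hvj, e, he, heg⟩ := cls_gap hW ha' hv0 hvm h1 h2 h4
        have hlt : a j ≤ 2 * K * a i := hstep i j hij hvj
        have hai := hpos i
        obtain ⟨w, hw, hwe⟩ : ∃ w, w ∈ Zg (q l) (2 * a i) (a j) ∧ (hdv e = w ∨ tlv e = w) := by
          rcases mem_eds.1 heg with h | h
          · exact ⟨_, h, Or.inl rfl⟩
          · exact ⟨_, h, Or.inr rfl⟩
        obtain ⟨t, ht, ht2⟩ := dyad (by omega) hw
        have htL : t < L + 1 := by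
          have h5 : (2 : ℤ) ^ t < K := by
            unfold rt at ht2
            have h6 : (2 : ℤ) ^ t * (2 * a i) < K * (2 * a i) := by
              calc _ < a j := ht2
                _ ≤ 2 * K * a i := hlt
                _ = K * (2 * a i) := by ring
            exact lt_of_mul_lt_mul_right h6 (by omega)
          have h6 : 2 ^ t ≤ K.toNat := by
            have : ((2 ^ t : ℕ) : ℤ) ≤ K := by push_cast; omega
            omega
          have h7 : t ≤ Nat.log 2 K.toNat := (Nat.le_log_iff_pow_le (by norm_num) (by omega)).2 h6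
          omega
        refine mem_biUnion.2 ⟨(i, t), ?_, mem_filter.2 ⟨hA, e, he, ?_⟩⟩
        · rw [hI, mem_filter, mem_product, mem_range]
          exact ⟨⟨mem_univ _, htL⟩, j, hij, ht2⟩
        · rw [mem_eds]
          rcases hwe with h | h
          · left; rw [h]; exact ht
          · right; rw [h]; exact ht
      refine (card_le_card hcov).trans (card_biUnion_le.trans (Finset.sum_le_sum fun p hp => ?_))
      have hpa := hpos p.1
      have hpr := hrt p.1 p.2
      have hps := hact p hp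
      have hsc := rt_succ (a p.1) p.2
      refine card_le_maj (hN1 p ω) (zone_sub hW.flat (by omega)) fun A hA => ?_
      obtain ⟨hA, hVz⟩ := mem_filter.1 hA
      obtain ⟨h1, h2, -, h4⟩ := hF A hA
      obtain ⟨h5, -⟩ := cls_gap hW ha' hv0 hvm h1 h2 h4
      obtain ⟨e1, he1, e2, he2, h6⟩ := H135.ND.s_big n q D l R hW (rt (a p.1) p.2)
        (rt (a p.1) (p.2 + 1)) ω (by omega) (by omega) (by omega) A h1 h5.1 h5.2 hVz
      refine ⟨h1, hVz, e1, he1, e2, he2, ?_⟩
      have h7 : ((rt (a p.1) p.2 : ℤ) : ℝ) - 2 ≤ nm (hdv e1 - hdv e2) := by exact_mod_cast h6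
      have h8 : (16 : ℝ) ≤ ((rt (a p.1) p.2 : ℤ) : ℝ) := by
        have : (16 : ℤ) ≤ rt (a p.1) p.2 := by omega
        exact_mod_cast this
      linarith
  -- one class
  have hcl : ∀ J ⊆ I, (∀ p ∈ J, ∀ p' ∈ J, p ≠ p' → 4 * rt (a p.1) p.2 ≤ rt (a p'.1) p'.2 ∨
      4 * rt (a p'.1) p'.2 ≤ rt (a p.1) p.2) →
      Ex Q D η (fun ω => (∏ p ∈ J, vs ^ (2 * N p ω)) ^ 4) ≤ (M ^ m) ^ (L + 1) := by
    intro J hJ hfar
    have hR2 : ∀ p ∈ J, (9 * rt (a p.1) p.2 + 7) / 4 + 2 ≤ R := by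
      intro p hp
      have := hact p (hJ hp)
      have := hpos p.1
      have := hrt p.1 p.2
      omega
    have hspec : ∀ p ∈ J, _ := fun p hp => hN2 p (3 * rt (a p.1) p.2 / 4) ((9 * rt (a p.1) p.2 + 7) / 4)
      (by omega) (by rw [rt_succ]; omega) D η R pl pr hW.flat hO (hR2 p hp)
    have h1 := prod_ind (Q := Q) (D := D) (η := η) J
      (F := fun p ω => Real.exp (8 * Real.log vs * N p ω))
      (S := fun p => Zg (q l) (3 * rt (a p.1) p.2 / 4) ((9 * rt (a p.1) p.2 + 7) / 4))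
      (c := fun _ => M) (fun _ _ => by linarith)
      (fun p hp => zone_sub hW.flat (by have := hR2 p hp; omega))
      (fun _ _ _ => (Real.exp_pos _).le) (fun p hp => (hspec p hp).1)
      (fun p hp p' hp' hne => ?_) (fun p hp g hg hi => (hspec p hp).2 g hg hi)
      (G := fun _ => 1) (fun _ => zero_le_one) (fun _ _ _ _ _ => rfl)
    · simp only [one_mul, prod_const, FKA.Ex_const hQ, mul_one] at h1
      have e : (fun ω : Cfg => (∏ p ∈ J, vs ^ (2 * N p ω)) ^ 4) =
          fun ω => ∏ p ∈ J, Real.exp (8 * Real.log vs * N p ω) := by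
        funext ω
        rw [← prod_pow]
        exact prod_congr rfl fun p _ => (exp_vs hvs _).symm
      rw [e]
      refine h1.trans ?_
      rw [← pow_mul]
      exact pow_le_pow_right₀ hM ((card_le_card hJ).trans hIc)
    · have hp1 := hrt p.1 p.2
      have hp2 := hrt p'.1 p'.2
      have := hpos p.1
      have := hpos p'.1
      rcases hfar p hp p' hp' hne with h | h
      · exact Zg_disj (by omega)
      · exact (Zg_disj (by omega)).symm
  -- the four classes
  set c1 : Fin m × ℕ → Prop := fun p => (p.1 : ℕ) % 2 = 0 with hc1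
  set c2 : Fin m × ℕ → Prop := fun p => p.2 % 2 = 0 with hc2
  have hfar : ∀ p ∈ I, ∀ p' ∈ I, (c1 p ↔ c1 p') → (c2 p ↔ c2 p') → p ≠ p' →
      4 * rt (a p.1) p.2 ≤ rt (a p'.1) p'.2 ∨ 4 * rt (a p'.1) p'.2 ≤ rt (a p.1) p.2 := by
    have key : ∀ p ∈ I, ∀ p' ∈ I, (c1 p ↔ c1 p') → p.1 < p'.1 →
        4 * rt (a p.1) p.2 ≤ rt (a p'.1) p'.2 := by
      intro p hp p' hp' h1 h2
      obtain ⟨j, hj, h3⟩ := (mem_filter.1 hp).2
      rw [Fin.lt_def] at h2
      have h4 : j < p'.1 := by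
        rw [Fin.lt_def]
        simp only [hc1] at h1
        omega
      have h5 := ha'.step j p'.1 h4
      have h6 := hrt p'.1 p'.2
      have h7 := hpos p'.1
      omega
    intro p hp p' hp' h1 h2 hne
    rcases lt_trichotomy p.1 p'.1 with h3 | h3 | h3
    · exact Or.inl (key p hp p' hp' h1 h3)
    · have h4 : p.2 ≠ p'.2 := fun h => hne (Prod.ext h3 h)
      have h5 := hpos p.1
      simp only [hc2] at h2
      rcases lt_or_gt_of_ne h4 with h6 | h6
      · left
        rw [← h3]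
        exact rt_mono (by omega) (by omega)
      · right
        rw [← h3]
        exact rt_mono (by omega) (by omega)
    · exact Or.inr (key p' hp' p hp h1.symm h3)
  have hsub : ∀ P : Fin m × ℕ → Prop, [DecidablePred P] → I.filter P ⊆ I := fun P _ => filter_subset _ _
  have hpt : ∀ ω : Cfg, Vc v q D (zf (q l) a) (UU (q l) a 0) ω ^ 2 ≤
      1 / 4 * ((∏ p ∈ (I.filter c1).filter c2, vs ^ (2 * N p ω)) ^ 4 +
        (∏ p ∈ (I.filter c1).filter (fun p => ¬ c2 p), vs ^ (2 * N p ω)) ^ 4 +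
        ((∏ p ∈ (I.filter (fun p => ¬ c1 p)).filter c2, vs ^ (2 * N p ω)) ^ 4 +
        (∏ p ∈ (I.filter (fun p => ¬ c1 p)).filter (fun p => ¬ c2 p), vs ^ (2 * N p ω)) ^ 4)) := by
    intro ω
    have h0 : 0 ≤ Vc v q D (zf (q l) a) (UU (q l) a 0) ω := zero_le_one.trans (Vc_one_le hv1)
    have h1 := pow_le_pow_left₀ h0 (hV ω) 2
    have e : (∏ p ∈ I, vs ^ N p ω) ^ 2 = ∏ p ∈ I, vs ^ (2 * N p ω) := by
      rw [← prod_pow]
      exact prod_congr rfl fun p _ => by rw [← pow_mul, mul_comm]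
    rw [e, ← prod_filter_mul_prod_filter_not I c1, ← prod_filter_mul_prod_filter_not (I.filter c1) c2,
      ← prod_filter_mul_prod_filter_not (I.filter (fun p => ¬ c1 p)) c2] at h1
    refine h1.trans ((amgm4 _ _ _ _).trans (le_of_eq ?_))
    ring
  refine (FKA.Ex_mono (Q := Q) (D := D) (η := η) hQ
    (F := fun ω => Vc v q D (zf (q l) a) (UU (q l) a 0) ω ^ 2)
    (G := fun ω => 1 / 4 * ((∏ p ∈ (I.filter c1).filter c2, vs ^ (2 * N p ω)) ^ 4 +
        (∏ p ∈ (I.filter c1).filter (fun p => ¬ c2 p), vs ^ (2 * N p ω)) ^ 4 +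
        ((∏ p ∈ (I.filter (fun p => ¬ c1 p)).filter c2, vs ^ (2 * N p ω)) ^ 4 +
        (∏ p ∈ (I.filter (fun p => ¬ c1 p)).filter (fun p => ¬ c2 p), vs ^ (2 * N p ω)) ^ 4)))
    fun S _ => hpt _).trans ?_
  rw [FKA.Ex_mul_left, FKA.Ex_add, FKA.Ex_add, FKA.Ex_add]
  have b1 := hcl ((I.filter c1).filter c2) ((filter_subset _ _).trans (filter_subset _ _))
    fun p hp p' hp' hne => by
      simp only [mem_filter] at hp hp'
      exact hfar p hp.1.1 p' hp'.1.1 (iff_of_true hp.1.2 hp'.1.2) (iff_of_true hp.2 hp'.2) hne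
  have b2 := hcl ((I.filter c1).filter (fun p => ¬ c2 p)) ((filter_subset _ _).trans (filter_subset _ _))
    fun p hp p' hp' hne => by
      simp only [mem_filter] at hp hp'
      exact hfar p hp.1.1 p' hp'.1.1 (iff_of_true hp.1.2 hp'.1.2) (iff_of_false hp.2 hp'.2) hne
  have b3 := hcl ((I.filter (fun p => ¬ c1 p)).filter c2) ((filter_subset _ _).trans (filter_subset _ _))
    fun p hp p' hp' hne => by
      simp only [mem_filter] at hp hp'
      exact hfar p hp.1.1 p' hp'.1.1 (iff_of_false hp.1.2 hp'.1.2) (iff_of_true hp.2 hp'.2) hne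
  have b4 := hcl ((I.filter (fun p => ¬ c1 p)).filter (fun p => ¬ c2 p))
    ((filter_subset _ _).trans (filter_subset _ _)) fun p hp p' hp' hne => by
      simp only [mem_filter] at hp hp'
      exact hfar p hp.1.1 p' hp'.1.1 (iff_of_false hp.1.2 hp'.1.2) (iff_of_false hp.2 hp'.2) hne
  linarith

end Vale.Agent.P167.H640.ND
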