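import Vale.Agent.P167.H436.ND.Defs
import Vale.Agent.P167.H135.Rot

/-!
# P167, general `q`: movements of the lattice and the functionals `XB`, `XG`

A movement `M : H135.Mov` (rotation by 90 degrees, even translation) transports polygons, enclosed sets,
boundary edges, `lo`, `hi`, `IsCl`, `wB`, `XB`, `XG`, Dobrushin configurations and `Ex`.
-/

namespace Vale.Agent.P167.H640.ND

open Finset Relation Vale.Agent.P167 Vale.Agent.P167.BR Vale.Agent.P167.FK
open Vale.Agent.P145.FB (PStep)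
open Vale.Agent.P167.QX (lo hi wB XB)
open Vale.Agent.P167.QB (Ard XG gB)
open Vale.Agent.P167.E6 (IsPolygon Encloses dir face)
open Vale.Agent.P167.H135 (Mov Cor)
open Vale.Agent.P167.H718 (IsXY IsCl Dob OutC)

theorem ed_ext {e e' : Ed} (h1 : ls e = ls e') (h2 : rs e = rs e') : e = e' := by
  rcases e with ⟨x, y⟩ | ⟨x, y⟩ <;> rcases e' with ⟨x', y'⟩ | ⟨x', y'⟩ <;>
    by_cases p : Even (x + y) <;> by_cases p' : Even (x' + y') <;>
    simp only [ls, rs, p, p', if_true, if_false, Prod.mk.injEq] at h1 h2 <;>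
    first
    | (exfalso; omega)
    | (have e1 : x = x' := by omega
       have e2 : y = y' := by omega
       rw [e1, e2])

theorem sides_dir (e : Ed) : (∃ r, rs e = ls e + dir r) ∧ ∃ r, ls e = rs e + dir r := by
  rcases e with ⟨x, y⟩ | ⟨x, y⟩ <;> by_cases p : Even (x + y) <;>
    simp only [ls, rs, p, if_true, if_false] <;> constructor <;>
    first
    | (refine ⟨0, ?_⟩; ext <;> simp [dir]; done)
    | (refine ⟨1, ?_⟩; ext <;> simp [dir]; done)
    | (refine ⟨2, ?_⟩; ext <;> simp [dir]; done)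
    | (refine ⟨3, ?_⟩; ext <;> simp [dir])

section

variable (M : Mov) {ω η : Cfg} {D : Finset (ℤ × ℤ)} {A : Finset Ed} {n k : ℕ} {q : ZMod n → ℤ × ℤ}

/-- The parity of the sites is preserved. -/
theorem par_mov (v : ℤ × ℤ) : Even ((M.t v).1 + (M.t v).2) ↔ Even (v.1 + v.2) := by
  by_cases h : Even (v.1 + v.2)
  · have h1 := (ce_even h 0).1
    have h2 := BR.even_ls (M.k (ce v 0))
    rw [M.lf, h1] at h2
    exact iff_of_true h2 h
  · have h1 := (ce_odd h 0).1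
    have h2 := BR.odd_rs (M.k (ce v 0))
    rw [M.rt, h1] at h2
    exact iff_of_false h2 h

theorem mov_ce (v : ℤ × ℤ) (r : Fin 4) : ∃ r', M.k (ce v r) = ce (M.t v) r' ∧
    M.t (v + dir r) = M.t v + dir r' ∧ M.s (face v r) = face (M.t v) r' ∧
      M.s (face v (r - 1)) = face (M.t v) (r' - 1) := by
  by_cases h : Even (v.1 + v.2)
  · obtain ⟨h1, h2, h3, h4⟩ := ce_even h r
    obtain ⟨r', hr'⟩ := (sides_dir (M.k (ce v r))).1
    obtain ⟨g1, g2, g3, g4⟩ := ce_even ((par_mov M v).2 h) r'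
    rw [M.rt, M.lf, h1, h2] at hr'
    have e : M.k (ce v r) = ce (M.t v) r' := by
      refine ed_ext ?_ ?_
      · rw [M.lf, h1, g1]
      · rw [M.rt, h2, g2, hr']
    refine ⟨r', e, hr', ?_, ?_⟩
    · rw [← h3, ← M.hd, e, g3]
    · rw [← h4, ← M.tl, e, g4]
  · obtain ⟨h1, h2, h3, h4⟩ := ce_odd h r
    obtain ⟨r', hr'⟩ := (sides_dir (M.k (ce v r))).2
    obtain ⟨g1, g2, g3, g4⟩ := ce_odd (fun h' => h ((par_mov M v).1 h')) r'
    rw [M.rt, M.lf, h1, h2] at hr'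
    have e : M.k (ce v r) = ce (M.t v) r' := by
      refine ed_ext ?_ ?_
      · rw [M.lf, h2, g2, hr']
      · rw [M.rt, h1, g1]
    refine ⟨r', e, hr', ?_, ?_⟩
    · rw [← h3, ← M.tl, e, g3]
    · rw [← h4, ← M.hd, e, g4]

/-- The moved polygon. -/
def Mq (q : ZMod n → ℤ × ℤ) : ZMod n → ℤ × ℤ := fun i => M.t (q i)

theorem poly_mov (hq : IsPolygon q) : IsPolygon (Mq M q) := by
  refine ⟨hq.1, fun i j h => hq.2.1 (M.t.injective h), fun i => ?_⟩
  obtain ⟨r, hr⟩ := hq.2.2 i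
  obtain ⟨r', -, h, -⟩ := mov_ce M (q i) r
  exact ⟨r', by unfold Mq; rw [hr, h]⟩

theorem enc_aux (h : ∀ (v : ℤ × ℤ) (r : Fin 4), (∃ i, q i = v ∧ q (i + 1) = v + dir r) →
    face v r ∈ D ∧ face v (r - 1) ∉ D) (v : ℤ × ℤ) (r : Fin 4)
    (hi : ∃ i, Mq M q i = v ∧ Mq M q (i + 1) = v + dir r) :
    face v r ∈ M.S D ∧ face v (r - 1) ∉ M.S D := by
  obtain ⟨i, h1, h2⟩ := hi
  obtain ⟨r', g1, g2, g3, g4⟩ := mov_ce M.symm v r
  have e1 : q i = M.t.symm v := by rw [← h1]; simp [Mq]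
  have e2 : q (i + 1) = M.t.symm v + dir r' := by
    have : M.t.symm (v + dir r) = M.t.symm v + dir r' := g2
    rw [← this, ← h2]; simp [Mq]
  obtain ⟨k1, k2⟩ := h _ _ ⟨i, e1, e2⟩
  have g3' : M.s.symm (face v r) = face (M.t.symm v) r' := g3
  have g4' : M.s.symm (face v (r - 1)) = face (M.t.symm v) (r' - 1) := g4
  rw [M.mem_S', M.mem_S', g3', g4']
  exact ⟨k1, k2⟩

theorem enc_mov (hD : Encloses q D) : Encloses (Mq M q) (M.S D) := by
  intro v r
  constructor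
  · exact enc_aux M (fun v r => (hD v r).1) v r
  · rintro ⟨h1, h2⟩
    obtain ⟨r', g1, g2, g3, g4⟩ := mov_ce M.symm v r
    have g3' : M.s.symm (face v r) = face (M.t.symm v) r' := g3
    have g4' : M.s.symm (face v (r - 1)) = face (M.t.symm v) (r' - 1) := g4
    rw [M.mem_S', g3'] at h1
    rw [M.mem_S', g4'] at h2
    obtain ⟨i, e1, e2⟩ := (hD _ _).2 ⟨h1, h2⟩
    refine ⟨i, by simp [Mq, e1], ?_⟩
    have : M.t.symm (v + dir r) = M.t.symm v + dir r' := g2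
    unfold Mq
    rw [e2, ← this, Equiv.apply_symm_apply]

theorem be_mov (hq : IsPolygon q) (i : ZMod n) : be (Mq M q) i = M.k (be q i) := by
  have h1 := be_sides hq i
  have h2 := be_sides (poly_mov M hq) i
  have e2 := BR.even_ls (M.k (be q i))
  have o2 := BR.odd_rs (M.k (be q i))
  have e1 := BR.even_ls (be (Mq M q) i)
  have o1 := BR.odd_rs (be (Mq M q) i)
  generalize hb : be (Mq M q) i = b at h2 e1 o1 ⊢
  rw [M.lf] at e2
  rw [M.rt] at o2
  unfold Mq at h2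
  rcases h1 with ⟨h1, h1'⟩ | ⟨h1, h1'⟩ <;> rcases h2 with ⟨h2, h2'⟩ | ⟨h2, h2'⟩
  · exact ed_ext (by rw [h2, M.lf, h1]) (by rw [h2', M.rt, h1'])
  · exfalso
    rw [h2'] at e1
    rw [h1'] at o2
    exact o2 e1
  · exfalso
    rw [h2] at e1
    rw [h1] at o2
    exact o2 e1
  · exact ed_ext (by rw [h2', M.lf, h1']) (by rw [h2, M.rt, h1])

theorem be_mem (hq : IsPolygon q) (i : ZMod n) : be (Mq M q) i ∈ M.E A ↔ be q i ∈ A := by
  rw [be_mov M hq, M.mem_E]

theorem lo_mov (hq : IsPolygon q) (A : Finset Ed) : lo (Mq M q) (M.E A) = lo q A := by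
  unfold lo
  simp only [be_mem M hq]

theorem hi_mov (hq : IsPolygon q) (A : Finset Ed) : hi (Mq M q) (M.E A) = hi q A := by
  unfold hi
  simp only [be_mem M hq]

theorem ard_mov (hq : IsPolygon q) (w : ℕ) (A : Finset Ed) :
    Ard (Mq M q) w (M.E A) ↔ Ard q w A := by
  unfold Ard
  rw [lo_mov M hq, hi_mov M hq]

theorem isXY_mov (hq : IsPolygon q) (A : Finset Ed) (x y : ℕ) :
    IsXY (Mq M q) (M.E A) x y ↔ IsXY q A x y := by
  unfold IsXY
  rw [be_mem M hq, be_mem M hq]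
  unfold Mq
  rw [par_mov, par_mov]

theorem isCl_mov (hq : IsPolygon q) (A : Finset Ed) (k : ℕ) :
    IsCl (M.S D) (Mq M q) k (M.E A) ↔ IsCl D q k A := by
  unfold IsCl
  rw [M.isLp_E]
  simp only [isXY_mov M hq]

theorem wB_mov (θ β : ℝ) (hq : IsPolygon q) (A : Finset Ed) (t : ℝ) :
    wB θ β (Mq M q) (M.S D) k (M.E A) t = wB θ β q D k A t := by
  have e1 : IsLp (M.S D) (M.E A) = IsLp D A := propext M.isLp_E
  have e2 : IsCl (M.S D) (Mq M q) k (M.E A) = IsCl D q k A := propext (isCl_mov M hq A k)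
  unfold QX.wB
  rw [lo_mov M hq, hi_mov M hq, e1, e2]

theorem XB_mov (θ β : ℝ) (hq : IsPolygon q) (f : ℤ × ℤ → ℝ) (ω : Cfg) :
    QX.XB θ β (Mq M q) (M.S D) k (M.F f) (M.c ω) = QX.XB θ β q D k f ω := by
  unfold QX.XB
  rw [M.pcs_c, prod_image (fun A _ B _ h => M.E_inj h)]
  refine prod_congr rfl fun A _ => ?_
  rw [wB_mov M θ β hq]
  unfold Mq
  rw [M.mass_E]

theorem XG_mov (θ : ℝ) (hq : IsPolygon q) (f : ℤ × ℤ → ℝ) (ω : Cfg) :
    XG θ (Mq M q) (M.S D) k (M.F f) (M.c ω) = XG θ q D k f ω :=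
  XB_mov M θ _ hq f ω

/-! ### the law -/

theorem syP_mov (ω : Cfg) : SyP M.k M.s ω (M.c ω) where
  n e := M.nx_c ω e
  h e := M.hd e

theorem good_mov (h : Good η) : Good (M.c η) := (syP_mov M η).sy.good h

theorem Ex_mov (Q : ℝ) (D : Finset (ℤ × ℤ)) (η : Cfg) (F : Cfg → ℝ) :
    Ex Q (M.S D) (M.c η) F = Ex Q D η (fun ω => F (M.c ω)) := by
  have hS : M.S D = D.image M.s := rfl
  rw [hS]
  refine Ex_sy (σ := M.s) (T := M.c) (fun S => S.image M.s) (fun S hS => ?_) ?_ (fun S _ => ?_)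
    (fun S _ => (syP_mov M _).sy.LD D) Q F
  · exact mem_powerset.mpr (image_subset_image (mem_powerset.mp hS))
  · intro S _ S' _ h'
    exact image_injective M.s.injective h'
  · funext v
    simp only [cf, Mov.c, mem_im]

/-- The expectation of `XG`. -/
theorem Ex_XG_mov (Q θ : ℝ) (hq : IsPolygon q) (η : Cfg) (f : ℤ × ℤ → ℝ) :
    Ex Q (M.S D) (M.c η) (XG θ (Mq M q) (M.S D) k (M.F f)) = Ex Q D η (XG θ q D k f) := by
  rw [Ex_mov]
  congr 1
  funext ω
  exact XG_mov M θ hq f ω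

/-! ### Dobrushin configurations -/

theorem pstep_iff {F : Set (ℤ × ℤ)} {u v : ℤ × ℤ} : PStep F u v ↔
    ∃ w ∈ F, Cor w u ∧ Cor w v ∧ u ≠ v ∧ (Even (u.1 + u.2) ↔ Even (v.1 + v.2)) := by
  unfold PStep Cor
  constructor
  · rintro ⟨h1, h2, h3⟩
    refine ⟨_, h3, ?_, ?_, ?_, ?_⟩
    · simp only; omega
    · simp only; omega
    · rintro rfl; omega
    · rw [Int.even_iff, Int.even_iff]; omega
  · rintro ⟨w, hw, h1, h2, h3, h4⟩
    have h5 : ¬ (u.1 = v.1 ∧ u.2 = v.2) := fun h => h3 (Prod.ext h.1 h.2)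
    rw [Int.even_iff, Int.even_iff] at h4
    have e : (min u.1 v.1, min u.2 v.2) = w := by
      ext
      · simp only; omega
      · simp only; omega
    refine ⟨by omega, by omega, ?_⟩
    rw [e]; exact hw

theorem pstep_mov {F F' : Set (ℤ × ℤ)} (hF : ∀ w, M.s w ∈ F' ↔ w ∈ F) {u v : ℤ × ℤ} :
    PStep F' (M.t u) (M.t v) ↔ PStep F u v := by
  rw [pstep_iff, pstep_iff, par_mov, par_mov]
  constructor
  · rintro ⟨w, hw, h1, h2, h3, h4⟩
    refine ⟨M.s.symm w, (hF _).1 (by rwa [Equiv.apply_symm_apply]), ?_, ?_, fun h => h3 (by rw [h]), h4⟩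
    · rw [← M.cor, Equiv.apply_symm_apply]; exact h1
    · rw [← M.cor, Equiv.apply_symm_apply]; exact h2
  · rintro ⟨w, hw, h1, h2, h3, h4⟩
    exact ⟨M.s w, (hF w).2 hw, (M.cor _ _).2 h1, (M.cor _ _).2 h2, fun h => h3 (M.t.injective h), h4⟩

theorem outC_aux {s t : ℤ × ℤ} (h : OutC η D s t) : OutC (M.c η) (M.S D) (M.t s) (M.t t) := by
  unfold OutC at *
  induction h with
  | refl => exact ReflTransGen.refl
  | tail _ h ih =>
    refine ih.tail ((pstep_mov M (fun w => ?_)).2 h)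
    simp only [Set.mem_inter_iff, Set.mem_compl_iff, mem_coe, M.mem_S]
    have : (M.s w ∈ op (M.c η)) ↔ (w ∈ op η) := by
      show M.c η (M.s w) = true ↔ η w = true
      rw [M.c_s]
    rw [this]

theorem outC_mov {s t : ℤ × ℤ} : OutC (M.c η) (M.S D) (M.t s) (M.t t) ↔ OutC η D s t := by
  refine ⟨fun h => ?_, outC_aux M⟩
  have := outC_aux M.symm h
  rw [M.symm_c_c, M.symm_S_S] at this
  simpa [Mov.symm] using this

theorem dob_mov (h : Dob η D q k) : Dob (M.c η) (M.S D) (Mq M q) k where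
  good := good_mov M h.good
  join i j h1 h2 h3 h4 h5 h6 := by
    unfold Mq at *
    rw [par_mov] at h5 h6
    exact (outC_mov M).2 (h.join i j h1 h2 h3 h4 h5 h6)
  sep s hs t ht h1 h2 h3 := by
    obtain ⟨s, rfl⟩ := M.t.surjective s
    obtain ⟨t, rfl⟩ := M.t.surjective t
    rw [M.mem_sites_t] at hs ht
    rw [par_mov] at h1
    obtain ⟨i, j, g1, g2, g3, g4, g5, g6⟩ := h.sep s hs t ht h1 ((outC_mov M).1 h2)
      (fun h => h3 (by rw [h]))
    exact ⟨i, j, g1, g2, g3, g4, by unfold Mq; rw [g5], by unfold Mq; rw [g6]⟩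

end

end Vale.Agent.P167.H640.ND
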