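import Vale.Agent.P167.BVP.Poly
import Vale.Agent.P167.XDL.Enl
import Vale.Agent.P167.H167.Q.JunMix
import Vale.Agent.P167.CA.Cell

/-!
# P167, general `q`: flat boundary points of a lattice polygon, on the lattice

`Flat S.P c ν r` (`BVP`): the domain is the half-plane with inner normal `ν` in the ball `(c, r)`. Then
`ν` is one of the four directions, the boundary line has an integer coordinate, and in the box the
squares of `S.D n` are the half-plane `hpl i (fs n c)` of `H167/Q/JunMix`.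
-/

namespace Vale.Agent.P167.H640.ND

open Set Metric Filter Topology MeasureTheory
open Vale.Agent.P167.E6 (region pt)
open Vale.Agent.P167.BVP (Flat ocell isOpen_ocell mem_region_of_open_cell)
open Vale.Agent.P167.CA (Dat)
open Vale.Agent.P167.H167.Q (hpl hcl lsd FlR)
open Vale.Agent.P167.FK (Bq)
open scoped ComplexConjugate

/-- An open unit cell is inside or outside of the domain. -/
theorem ocell_iff {Q : Finset (ℤ × ℤ)} {f : ℤ × ℤ} {z : ℂ} (hz : z ∈ ocell f) :
    z ∈ interior (region 1 Q) ↔ f ∈ Q := by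
  constructor
  · intro h
    exact (mem_region_of_open_cell hz.1 hz.2.1 hz.2.2.1 hz.2.2.2).1 (interior_subset h)
  · intro hf
    refine mem_interior.2 ⟨ocell f, fun w hw => ?_, isOpen_ocell f, hz⟩
    exact (mem_region_of_open_cell hw.1 hw.2.1 hw.2.2.1 hw.2.2.2).2 hf

theorem floor_cell {z : ℂ} (h1 : ∀ m : ℤ, z.re ≠ m) (h2 : ∀ m : ℤ, z.im ≠ m) :
    z ∈ ocell (⌊z.re⌋, ⌊z.im⌋) :=
  ⟨lt_of_le_of_ne (Int.floor_le _) (h1 _).symm, Int.lt_floor_add_one _,
    lt_of_le_of_ne (Int.floor_le _) (h2 _).symm, Int.lt_floor_add_one _⟩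

/-- Every point of the boundary line has an integer coordinate. -/
theorem line_int {Q : Finset (ℤ × ℤ)} {c ν : ℂ} {r : ℝ} (hF : Flat (interior (region 1 Q)) c ν r)
    {s : ℝ} (hs : |s| < r) : (∃ m : ℤ, (c + s * (Complex.I * ν)).re = m) ∨
      ∃ m : ℤ, (c + s * (Complex.I * ν)).im = m := by
  by_contra hcon
  push Not at hcon
  obtain ⟨h1, h2⟩ := hcon
  set w : ℂ := c + s * (Complex.I * ν) with hw
  have hcell := floor_cell h1 h2
  have hball : w ∈ ball c r := by
    rw [mem_ball, dist_eq_norm, hw]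
    have : c + s * (Complex.I * ν) - c = s * (Complex.I * ν) := by ring
    rw [this, norm_mul, norm_mul, Complex.norm_I, hF.norm]
    simpa using hs
  obtain ⟨ε, hε, hsub⟩ := Metric.isOpen_iff.1 ((isOpen_ocell _).inter isOpen_ball) w ⟨hcell, hball⟩
  have key : ∀ t : ℝ, |t| < ε → (w + t * ν ∈ interior (region 1 Q) ↔ 0 < t) ∧
      w + t * ν ∈ ocell (⌊w.re⌋, ⌊w.im⌋) := by
    intro t ht
    have h3 : w + t * ν ∈ ball w ε := by
      rw [mem_ball, dist_eq_norm]
      have : w + t * ν - w = t * ν := by ring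
      rw [this, norm_mul, hF.norm]
      simpa using ht
    have h4 := hsub h3
    refine ⟨?_, h4.1⟩
    rw [hF.mem _ h4.2]
    have e : ((w + t * ν - c) * conj ν).re = t := by
      have e1 : (w + t * ν - c) * conj ν = (s * Complex.I + t) * (ν * conj ν) := by
        rw [hw]; ring
      have e2 : ν * conj ν = 1 := by
        rw [Complex.mul_conj, Complex.normSq_eq_norm_sq, hF.norm]; norm_num
      rw [e1, e2]
      simp
    rw [e]
  obtain ⟨a1, a2⟩ := key (ε / 2) (by rw [abs_of_pos (by positivity)]; linarith)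
  obtain ⟨b1, b2⟩ := key (-(ε / 2)) (by rw [abs_neg, abs_of_pos (by positivity)]; linarith)
  have h5 := (ocell_iff (Q := Q) a2).1 (a1.2 (by positivity))
  have h6 := b1.1 ((ocell_iff b2).2 h5)
  linarith

/-- A number off countably many. -/
theorem exists_off {r : ℝ} (hr : 0 < r) {A : Set ℝ} (hA : A.Countable) : ∃ s, |s| < r ∧ s ∉ A := by
  by_contra hcon
  push Not at hcon
  have h1 : Ioo (-r) r ⊆ A := fun s hs => hcon s (abs_lt.2 hs)
  have h2 := (hA.mono h1).measure_zero (volume : Measure ℝ)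
  rw [Real.volume_Ioo, ENNReal.ofReal_eq_zero] at h2
  linarith

theorem countable_line {a b : ℝ} (hb : b ≠ 0) : {s : ℝ | ∃ m : ℤ, a + s * b = m}.Countable := by
  refine (countable_range fun m : ℤ => ((m : ℝ) - a) / b).mono ?_
  rintro s ⟨m, hm⟩
  refine ⟨m, ?_⟩
  show ((m : ℝ) - a) / b = s
  rw [← hm]
  field_simp
  ring

/-- The inner normal of the half-plane `hpl i`. -/
noncomputable def nor (i : Fin 4) : ℂ := ![Complex.I, -1, -Complex.I, 1] i

/-- **The normal is one of the four directions and the boundary line is a line of the lattice.** -/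
theorem flat_dir {Q : Finset (ℤ × ℤ)} {c ν : ℂ} {r : ℝ} (hF : Flat (interior (region 1 Q)) c ν r) :
    ∃ (i : Fin 4) (m : ℤ), ν = nor i ∧ (if i = 0 ∨ i = 2 then c.im = m else c.re = m) := by
  have hre : ∀ s : ℝ, (c + s * (Complex.I * ν)).re = c.re + s * (-ν.im) := fun s => by simp
  have him : ∀ s : ℝ, (c + s * (Complex.I * ν)).im = c.im + s * ν.re := fun s => by simp
  have h1 : ν.re = 0 ∨ ν.im = 0 := by
    by_contra hcon
    push Not at hcon
    obtain ⟨s, hs, hs2⟩ := exists_off hF.pos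
      ((countable_line (a := c.re) (neg_ne_zero.2 hcon.2)).union
        (countable_line (a := c.im) hcon.1))
    rcases line_int hF hs with ⟨m, hm⟩ | ⟨m, hm⟩
    · exact hs2 (Or.inl ⟨m, by rw [← hre]; exact hm⟩)
    · exact hs2 (Or.inr ⟨m, by rw [← him]; exact hm⟩)
  have hn : ν.re ^ 2 + ν.im ^ 2 = 1 := by
    have := Complex.normSq_eq_norm_sq ν
    rw [hF.norm, Complex.normSq_apply] at this
    nlinarith
  rcases h1 with h | h
  · have h2 : ν.im ≠ 0 := fun h' => by rw [h, h'] at hn; norm_num at hn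
    have h3 : ν.im = 1 ∨ ν.im = -1 := by
      rw [h] at hn
      have : (ν.im - 1) * (ν.im + 1) = 0 := by nlinarith
      rcases mul_eq_zero.1 this with h' | h'
      · left; linarith
      · right; linarith
    obtain ⟨s, hs, hs2⟩ := exists_off hF.pos (countable_line (a := c.re) (neg_ne_zero.2 h2))
    have h4 : ∃ m : ℤ, c.im = m := by
      rcases line_int hF hs with ⟨m, hm⟩ | ⟨m, hm⟩
      · exact absurd ⟨m, by rw [← hre]; exact hm⟩ hs2
      · exact ⟨m, by rw [← hm, him, h]; ring⟩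
    obtain ⟨m, hm⟩ := h4
    rcases h3 with h3 | h3
    · exact ⟨0, m, Complex.ext (by simp [nor, h]) (by simp [nor, h3]), by simpa using hm⟩
    · exact ⟨2, m, Complex.ext (by simp [nor, h]) (by simp [nor, h3]), by simpa using hm⟩
  · have h2 : ν.re ≠ 0 := fun h' => by rw [h, h'] at hn; norm_num at hn
    have h3 : ν.re = 1 ∨ ν.re = -1 := by
      rw [h] at hn
      have : (ν.re - 1) * (ν.re + 1) = 0 := by nlinarith
      rcases mul_eq_zero.1 this with h' | h'
      · left; linarith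
      · right; linarith
    obtain ⟨s, hs, hs2⟩ := exists_off hF.pos (countable_line (a := c.im) h2)
    have h4 : ∃ m : ℤ, c.re = m := by
      rcases line_int hF hs with ⟨m, hm⟩ | ⟨m, hm⟩
      · exact ⟨m, by rw [← hm, hre, h]; ring⟩
      · exact absurd ⟨m, by rw [← him]; exact hm⟩ hs2
    obtain ⟨m, hm⟩ := h4
    rcases h3 with h3 | h3
    · exact ⟨3, m, Complex.ext (by simp [nor, h3]) (by simp [nor, h]), by simpa using hm⟩
    · exact ⟨1, m, Complex.ext (by simp [nor, h3]) (by simp [nor, h]), by simpa using hm⟩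

/-- A square of mesh `1 / n` is in the domain iff its centre is. -/
theorem mem_D_iff (S : Dat) {n : ℕ} (hn : 0 < n) (v : ℤ × ℤ) :
    v ∈ S.D n ↔ (⟨(v.1 + 1 / 2) / n, (v.2 + 1 / 2) / n⟩ : ℂ) ∈ S.P := by
  have hn' : (0 : ℝ) < n := by exact_mod_cast hn
  have hni : (0 : ℤ) < n := by exact_mod_cast hn
  have key : ∀ a : ℤ, ((a / n : ℤ) : ℝ) < ((a : ℝ) + 1 / 2) / n ∧
      ((a : ℝ) + 1 / 2) / n < ((a / n : ℤ) : ℝ) + 1 := by
    intro a
    have h1 : (n : ℤ) * (a / n) ≤ a := Int.mul_ediv_self_le hni.ne'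
    have h2 : a < n * (a / n) + n := Int.lt_mul_ediv_self_add hni
    have h1' : (n : ℝ) * ((a / n : ℤ) : ℝ) ≤ a := by exact_mod_cast h1
    have h2' : (a : ℝ) + 1 ≤ n * ((a / n : ℤ) : ℝ) + n := by
      have : a + 1 ≤ n * (a / n) + n := h2
      exact_mod_cast this
    constructor
    · rw [lt_div_iff₀ hn']; linarith
    · rw [div_lt_iff₀ hn']; linarith
  have h1 : v ∈ CA.enl S.Q n ↔ (v.1 / n, v.2 / n) ∈ S.Q := Enl.mem_enl_div hn
  show v ∈ CA.enl S.Q n ↔ _
  rw [h1]
  exact (ocell_iff (Q := S.Q) ⟨(key v.1).1, (key v.1).2, (key v.2).1, (key v.2).2⟩).symm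

theorem fin4_cases : ∀ i : Fin 4, i = 0 ∨ i = 1 ∨ i = 2 ∨ i = 3 := by decide

/-- **The lattice domain near a flat boundary point is a half-plane.** -/
theorem flat_dom (S : Dat) {c ν : ℂ} {r : ℝ} (hF : Flat S.P c ν r) : ∃ i : Fin 4, ν = nor i ∧
    ∀ (n : ℕ), 0 < n → ∀ (R : ℤ) (v : ℤ × ℤ), 2 * ((R : ℝ) + 2) ≤ r * n →
      |v.1 - (CA.fs n c).1| ≤ R → |v.2 - (CA.fs n c).2| ≤ R → (v ∈ S.D n ↔ hpl i (CA.fs n c) v) := by
  obtain ⟨i, m, hi, hm⟩ := flat_dir hF
  refine ⟨i, hi, fun n hn R v hR h1 h2 => ?_⟩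
  have hn' : (0 : ℝ) < n := by exact_mod_cast hn
  have f1 := Int.floor_le (c.re * n)
  have f2 := Int.lt_floor_add_one (c.re * n)
  have f3 := Int.floor_le (c.im * n)
  have f4 := Int.lt_floor_add_one (c.im * n)
  unfold CA.fs at h1 h2 ⊢
  simp only at h1 h2
  rw [abs_le] at h1 h2
  have g1 : -(R : ℝ) ≤ v.1 - (⌊c.re * n⌋ : ℝ) := by exact_mod_cast h1.1
  have g2 : (v.1 : ℝ) - (⌊c.re * n⌋ : ℝ) ≤ R := by exact_mod_cast h1.2
  have g3 : -(R : ℝ) ≤ v.2 - (⌊c.im * n⌋ : ℝ) := by exact_mod_cast h2.1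
  have g4 : (v.2 : ℝ) - (⌊c.im * n⌋ : ℝ) ≤ R := by exact_mod_cast h2.2
  have k1 : |((v.1 : ℝ) + 1 / 2) / n - c.re| < (R + 2) / n := by
    rw [show ((v.1 : ℝ) + 1 / 2) / n - c.re = (v.1 + 1 / 2 - c.re * n) / n by field_simp, abs_div,
      abs_of_pos hn']
    refine div_lt_div_of_pos_right ?_ hn'
    rw [abs_lt]
    constructor <;> linarith
  have k2 : |((v.2 : ℝ) + 1 / 2) / n - c.im| < (R + 2) / n := by
    rw [show ((v.2 : ℝ) + 1 / 2) / n - c.im = (v.2 + 1 / 2 - c.im * n) / n by field_simp, abs_div,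
      abs_of_pos hn']
    refine div_lt_div_of_pos_right ?_ hn'
    rw [abs_lt]
    constructor <;> linarith
  have hball : (⟨(v.1 + 1 / 2) / n, (v.2 + 1 / 2) / n⟩ : ℂ) ∈ ball c r := by
    rw [mem_ball, dist_eq_norm]
    refine (Complex.norm_le_abs_re_add_abs_im _).trans_lt ?_
    have h3 : ((R : ℝ) + 2) / n + (R + 2) / n ≤ r := by
      rw [← add_div, div_le_iff₀ hn']
      linarith
    have h4 : |((⟨(v.1 + 1 / 2) / n, (v.2 + 1 / 2) / n⟩ : ℂ) - c).re| < (R + 2) / n := k1
    have h5 : |((⟨(v.1 + 1 / 2) / n, (v.2 + 1 / 2) / n⟩ : ℂ) - c).im| < (R + 2) / n := k2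
    linarith
  rw [mem_D_iff S hn, hF.mem _ hball, hi]
  have e0 : ∀ k : ℤ, (⌊((k : ℝ)) * n⌋ : ℤ) = k * n := fun k => by
    have : ((k : ℝ)) * n = ((k * n : ℤ) : ℝ) := by push_cast; ring
    rw [this, Int.floor_intCast]
  have z1 : ∀ a k : ℤ, (0 < ((a : ℝ) + 1 / 2) / n - k ↔ k * n ≤ a) := by
    intro a k
    rw [sub_pos, lt_div_iff₀ hn']
    constructor
    · intro h
      by_contra hcon
      push Not at hcon
      have : (a : ℝ) + 1 ≤ k * n := by exact_mod_cast hcon
      linarith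
    · intro h
      have : (k : ℝ) * n ≤ a := by exact_mod_cast h
      linarith
  have z2 : ∀ a k : ℤ, (((a : ℝ) + 1 / 2) / n - k < 0 ↔ a < k * n) := by
    intro a k
    rw [sub_neg, div_lt_iff₀ hn']
    constructor
    · intro h
      by_contra hcon
      push Not at hcon
      have : (k : ℝ) * n ≤ a := by exact_mod_cast hcon
      linarith
    · intro h
      have : (a : ℝ) + 1 ≤ k * n := by exact_mod_cast h
      linarith
  have hc := fin4_cases i
  rcases hc with rfl | rfl | rfl | rfl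
  · have hm' : c.im = m := by simpa using hm
    have := z1 v.2 m
    simp only [nor, hpl, hm', e0]
    simpa [hm'] using this
  · have hm' : c.re = m := by simpa using hm
    have := z2 v.1 m
    simp only [nor, hpl, hm', e0]
    simpa [hm'] using this
  · have hm' : c.im = m := by simpa using hm
    have := z2 v.2 m
    simp only [nor, hpl, hm', e0]
    simpa [hm'] using this
  · have hm' : c.re = m := by simpa using hm
    have := z1 v.1 m
    simp only [nor, hpl, hm', e0]
    simpa [hm'] using this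

/-- The case of the upper half-plane: the flat window. -/
theorem flat_flt (S : Dat) {c : ℂ} {r : ℝ} (hF : Flat S.P c Complex.I r) {n : ℕ} (hn : 0 < n) {R : ℤ}
    (hR : 2 * ((R : ℝ) + 2) ≤ r * n) : BR.Flt (S.D n) (CA.fs n c) R := by
  obtain ⟨i, hi, h⟩ := flat_dom S hF
  have h0 : i = 0 := by
    rcases fin4_cases i with rfl | rfl | rfl | rfl
    · rfl
    · exfalso
      have := congrArg Complex.re hi
      simp [nor] at this
    · exfalso
      have := congrArg Complex.im hi
      simp [nor] at this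
      norm_num at this
    · exfalso
      have := congrArg Complex.re hi
      simp [nor] at this
  subst h0
  intro v h1 h2 h3 h4
  have := h n hn R v hR (by rw [abs_le]; omega) (by rw [abs_le]; omega)
  rw [this]
  rfl

end Vale.Agent.P167.H640.ND
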